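import Vale.Agent.P092RA.Defs
import Vale.Agent.P092LM.Defs

/-!
P092, rank one, block ORB (helper77): the space of walls, its measure and the tests.
-/

set_option linter.all false

open MeasureTheory Filter Topology Set
open scoped InnerProductSpace ENNReal NNReal

namespace Vale.Agent.P092RO

open Vale.Agent.P092.H793.Re Vale.Agent.P092RG Vale.Agent.P092RA Vale.Agent.P092LM

variable {n : ℕ} {G : Type} [Group G] [TopologicalSpace G]
variable {ρ : G →* SLn n} {w : Fin n → ℝ} (h : R1 ρ w)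

/-- the measure on the frequencies -/
noncomputable def wm : Measure (EE n) :=
  volume.withDensity fun η => ENNReal.ofReal (wt (MM h) η)

instance : IsFiniteMeasure (wm h) := isFiniteMeasure_withDensity_ofReal (integrable_wtM h).2

/-- the tests seen from the origin -/
noncomputable def TW (t : ℝ) (ξ : G × EE n) : C(h.Y, ℂ) := TT h t ξ.1 ξ.1 ξ.2

theorem tw_eq (t : ℝ) (x : G) (f : C(h.Y, ℂ)) : tw h t x f = act h t x f := rfl

theorem continuous_act' : Continuous fun q : (ℝ × G) × C(h.Y, ℂ) => act h q.1.1 q.1.2 q.2 := by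
  haveI := topGroup h.rs.emb
  refine ContinuousMap.continuous_of_continuous_uncurry _ ?_
  have h1 : Continuous fun z : ((ℝ × G) × C(h.Y, ℂ)) × h.Y => h.co z.1.1.2⁻¹ z.2 :=
    h.continuous_co.comp (f := fun z : ((ℝ × G) × C(h.Y, ℂ)) × h.Y => (z.1.1.2⁻¹, z.2))
      (by fun_prop)
  show Continuous fun z : ((ℝ × G) × C(h.Y, ℂ)) × h.Y =>
    (Real.exp (-(z.1.1.1 * h.co z.1.1.2⁻¹ z.2)) : ℂ) * z.1.2 (z.1.1.2⁻¹ • z.2)
  fun_prop

theorem continuous_TW : Continuous fun q : ℝ × (G × EE n) => TW h q.1 q.2 :=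
  (continuous_act' h).comp (f := fun q : ℝ × (G × EE n) =>
    ((q.1, q.2.1), sh h q.2.1 * em (du h) q.2.2)) ((by fun_prop : Continuous _).prodMk
    (((continuous_sh h).comp (continuous_fst.comp continuous_snd)).mul
      ((continuous_em _).comp (continuous_snd.comp continuous_snd))))

theorem continuous_TW' (t : ℝ) : Continuous (TW h t) :=
  (continuous_TW h).comp (Continuous.prodMk_right t)

theorem lintegral_wm (t : ℝ) (v : G) (Z : SN h.Y) :
    ∫⁻ η, ENNReal.ofReal (Z.p (TW h t (v, η)) ^ 2) ∂wm h = ENNReal.ofReal (qw h t v Z) := by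
  have m1 : Measurable fun η => ENNReal.ofReal (Z.p (TW h t (v, η)) ^ 2) :=
    ((Z.continuous.comp ((continuous_TW' h t).comp (Continuous.prodMk_right v))).pow
      2).measurable.ennreal_ofReal
  rw [wm, lintegral_withDensity_eq_lintegral_mul _ (continuous_wt _).measurable.ennreal_ofReal m1,
    qw_eq, ofReal_integral_eq_lintegral_ofReal (integrable_qw h t v v Z)
      (Eventually.of_forall fun η => mul_nonneg (sq_nonneg _) (wt_pos _ _).le)]
  refine lintegral_congr fun η => ?_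
  rw [Pi.mul_apply, ← ENNReal.ofReal_mul (wt_pos _ _).le, mul_comm]
  rfl

variable [IsTopologicalGroup G] [SecondCountableTopology G] [MeasurableSpace G] [BorelSpace G]

/-- the measure on the walls -/
noncomputable def mm (μ : Measure G) : Measure (G × EE n) := μ.prod (wm h)

instance (μ : Measure G) [SFinite μ] : SFinite (mm h μ) := by unfold mm; infer_instance

instance (μ : Measure G) [IsFiniteMeasureOnCompacts μ] : IsFiniteMeasureOnCompacts (mm h μ) := by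
  unfold mm; infer_instance

theorem lintegral_mm (μ : Measure G) (t : ℝ) (Z : SN h.Y) :
    ∫⁻ ξ, ENNReal.ofReal (Z.p (TW h t ξ) ^ 2) ∂mm h μ = ∫⁻ v, ENNReal.ofReal (qw h t v Z) ∂μ := by
  have m1 : Measurable fun ξ => ENNReal.ofReal (Z.p (TW h t ξ) ^ 2) :=
    ((Z.continuous.comp (continuous_TW' h t)).pow 2).measurable.ennreal_ofReal
  rw [mm, lintegral_prod _ m1.aemeasurable]
  exact lintegral_congr fun v => lintegral_wm h t v Z

theorem en_sq {H : Type} [NormedAddCommGroup H] (x : H) :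
    ‖x‖ₑ ^ 2 = ENNReal.ofReal (‖x‖ ^ 2) := by
  rw [ENNReal.ofReal_pow (norm_nonneg _), ofReal_norm]

theorem NN_of (μ : Measure G) {t : ℝ} (ht : 0 < t) {H : Type} [NormedAddCommGroup H]
    [NormedSpace ℂ H] [CompleteSpace H] (Z : C(h.Y, ℂ) →L[ℂ] H) : NN h μ t (SN.of Z) =
      ∫⁻ ξ, ‖Z (TW h t ξ)‖ₑ ^ 2 ∂mm h μ + (ENNReal.ofReal t)⁻¹ * ‖Z 1‖ₑ ^ 2 := by
  simp only [en_sq]
  rw [NN, ← lintegral_mm, ENNReal.ofReal_mul (inv_pos.2 ht).le, ENNReal.ofReal_inv_of_pos ht]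
  rfl

theorem NN_comp (μ : Measure G) (t : ℝ) {H : Type} [NormedAddCommGroup H] [NormedSpace ℂ H]
    [CompleteSpace H] (Z : C(h.Y, ℂ) →L[ℂ] H) (A : C(h.Y, ℂ) →L[ℂ] C(h.Y, ℂ)) :
    NN h μ t ((SN.of Z).comp A) = NN h μ t (SN.of (Z ∘L A)) := rfl

/-- the form of EQ used by the limit -/
theorem eq_of_EQ {μ : Measure G} (e : EQ h μ) : ∃ c : ℝ≥0∞, c ≠ ∞ ∧ ∀ t ∈ Ioc (0 : ℝ) (1 / 4),
    ∀ (x : G) (H : Type) [NormedAddCommGroup H] [InnerProductSpace ℂ H] [CompleteSpace H]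
      (Z : C(h.Y, ℂ) →L[ℂ] H), ∫⁻ ξ, ‖Z (tw h t x (TW h t ξ))‖ₑ ^ 2 ∂mm h μ ≤
      c * (∫⁻ ξ, ‖Z (TW h t ξ)‖ₑ ^ 2 ∂mm h μ + (ENNReal.ofReal t)⁻¹ * ‖Z 1‖ₑ ^ 2) := by
  obtain ⟨C, -, e⟩ := e
  refine ⟨_, ENNReal.ofReal_ne_top (r := C), fun t ht x H _ _ _ Z => ?_⟩
  have := e t ht.1 ht.2 x (SN.of Z)
  rw [NN_comp, NN_of h μ ht.1, NN_of h μ ht.1] at this
  exact le_self_add.trans this

end Vale.Agent.P092RO
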