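import Vale.Agent.P092UB.Defs
import Mathlib.Analysis.Normed.Operator.Extend
import Mathlib.MeasureTheory.Measure.SeparableMeasure

/-!
P092, rank one, block ORB (helper77): orbit maps from kernels.
-/

set_option linter.all false

open MeasureTheory Filter Topology Set
open scoped InnerProductSpace ENNReal NNReal ComplexConjugate

namespace Vale.Agent.P092RO

open Vale.Agent.P092UB (Orb)

theorem exists_ext {G H : Type} [NormedAddCommGroup H] [InnerProductSpace ℝ H] [CompleteSpace H]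
    (F F' : G → H) {c : ℝ} (hc : 0 ≤ c) (hb : ∀ a : G →₀ ℝ,
      ‖Finsupp.linearCombination ℝ F' a‖ ≤ c * ‖Finsupp.linearCombination ℝ F a‖) :
    ∃ ρ : H →L[ℝ] H, ‖ρ‖ ≤ c ∧ ∀ y, ρ (F y) = F' y := by
  let U : Submodule ℝ H := (LinearMap.range (Finsupp.linearCombination ℝ F)).topologicalClosure
  let e : (G →₀ ℝ) →ₗ[ℝ] U := (Finsupp.linearCombination ℝ F).codRestrict U fun a =>
    Submodule.le_topologicalClosure _ (LinearMap.mem_range_self _ a)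
  have hd : DenseRange e := by
    rw [DenseRange, Subtype.dense_iff]
    intro x hx
    refine closure_mono ?_ hx
    rintro _ ⟨a, rfl⟩
    exact ⟨e a, ⟨a, rfl⟩, rfl⟩
  refine ⟨((Finsupp.linearCombination ℝ F').extendOfNorm e) ∘L U.orthogonalProjectionOnto,
    ContinuousLinearMap.opNorm_le_bound _ hc fun x => ?_, fun y => ?_⟩
  · refine (LinearMap.norm_extendOfNorm_apply_le hd c hb _).trans
      (mul_le_mul_of_nonneg_left ?_ hc)
    exact U.norm_starProjection_apply_le x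
  · have e1 : U.orthogonalProjectionOnto (F y) = e (Finsupp.single y 1) := by
      have : F y = (e (Finsupp.single y 1) : H) := by simp [e]
      rw [this, Submodule.orthogonalProjectionOnto_mem_subspace_eq_self]
    rw [ContinuousLinearMap.comp_apply, e1, LinearMap.extendOfNorm_eq hd ⟨c, hb⟩]
    simp

theorem norm_pair {E F : Type} [NormedAddCommGroup E] [NormedAddCommGroup F] {x : E} {y : F}
    {a b : ℝ} (hx : ‖x‖ ≤ a) (hy : ‖y‖ ≤ b) : ‖WithLp.toLp 2 (x, y)‖ ≤ a + b := by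
  have h1 := norm_nonneg x
  have h2 := norm_nonneg y
  rw [WithLp.prod_norm_eq_of_L2]
  refine Real.sqrt_le_iff.2 ⟨by linarith, ?_⟩
  show ‖x‖ ^ 2 + ‖y‖ ^ 2 ≤ _
  nlinarith

variable {Ξ : Type} [MeasurableSpace Ξ] {m : Measure Ξ} {K K' : Ξ → ℂ} {D : ℝ}

/-- `K` has `L²` norm at most `D` -/
structure L2 (m : Measure Ξ) (K : Ξ → ℂ) (D : ℝ) : Prop where
  meas : AEStronglyMeasurable K m
  pos : 0 ≤ D
  le : ∫⁻ ξ, ‖K ξ‖ₑ ^ 2 ∂m ≤ ENNReal.ofReal D ^ 2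

theorem L2.mem (h : L2 m K D) : MemLp K 2 m := by
  have h1 := eLpNorm_nnreal_pow_eq_lintegral (f := K) (μ := m) (p := 2) (by norm_num)
  have h2 : ∫⁻ ξ, ‖K ξ‖ₑ ^ 2 ∂m ≠ ∞ := ne_top_of_le_ne_top (by finiteness) h.le
  exact ⟨h.meas, lt_top_iff_ne_top.2 fun e => h2 (by simpa [e] using h1.symm)⟩

theorem L2.mono (h : L2 m K D) {D' : ℝ} (e : D ≤ D') : L2 m K D' :=
  ⟨h.meas, h.pos.trans e, h.le.trans (pow_le_pow_left' (ENNReal.ofReal_le_ofReal e) 2)⟩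

open Classical in
/-- the class of a function -/
noncomputable def vL (m : Measure Ξ) (K : Ξ → ℂ) : Lp ℂ 2 m :=
  if h : MemLp K 2 m then h.toLp K else 0

theorem vL_ae (h : MemLp K 2 m) : ⇑(vL m K) =ᵐ[m] K := by
  rw [vL, dif_pos h]; exact h.coeFn_toLp

theorem enorm_vL (h : MemLp K 2 m) : ‖vL m K‖ₑ ^ 2 = ∫⁻ ξ, ‖K ξ‖ₑ ^ 2 ∂m := by
  rw [P092CP.enorm_sq]
  exact lintegral_congr_ae ((vL_ae h).mono fun ξ e => by simp only [e])

theorem L2.norm_le (h : L2 m K D) : ‖vL m K‖ ≤ D := by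
  have h1 := (enorm_vL h.mem).trans_le h.le
  rw [ENNReal.pow_le_pow_left_iff two_ne_zero, ← ofReal_norm] at h1
  exact (ENNReal.ofReal_le_ofReal_iff h.pos).1 h1

theorem inner_vL (g : Lp ℂ 2 m) (h : MemLp K 2 m) :
    ⟪g, vL m K⟫_ℝ = ∫ ξ, ⟪g ξ, K ξ⟫_ℝ ∂m := by
  rw [MeasureTheory.L2.inner_def]
  exact integral_congr_ae ((vL_ae h).mono fun ξ e => by simp only [e])

theorem inner_vL₂ (h : MemLp K 2 m) (h' : MemLp K' 2 m) :
    ⟪vL m K, vL m K'⟫_ℝ = ∫ ξ, ⟪K ξ, K' ξ⟫_ℝ ∂m := by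
  rw [inner_vL _ h']
  exact integral_congr_ae ((vL_ae h).mono fun ξ e => by simp only [e])

theorem vL_add (h : MemLp K 2 m) (h' : MemLp K' 2 m) : vL m (K + K') = vL m K + vL m K' := by
  rw [vL, vL, vL, dif_pos h, dif_pos h', dif_pos (h.add h'), MemLp.toLp_add]

theorem vL_sub (h : MemLp K 2 m) (h' : MemLp K' 2 m) : vL m (K - K') = vL m K - vL m K' := by
  rw [vL, vL, vL, dif_pos h, dif_pos h', dif_pos (h.sub h'), MemLp.toLp_sub]

theorem vL_smul (c : ℝ) (h : MemLp K 2 m) : vL m (c • K) = c • vL m K := by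
  rw [vL, vL, dif_pos h, dif_pos (h.const_smul c), MemLp.toLp_const_smul]

theorem vL_zero : vL m 0 = 0 := by
  rw [vL, dif_pos MemLp.zero, MemLp.toLp_zero]

theorem inner_w {ω ω' : Ξ → ℝ} (e : ∀ ξ, ω ξ * ω' ξ = 1) (h : MemLp K 2 m) (h' : MemLp K' 2 m)
    (h1 : MemLp (fun ξ => ω ξ • K ξ) 2 m) (h2 : MemLp (fun ξ => ω' ξ • K' ξ) 2 m) :
    ⟪vL m fun ξ => ω ξ • K ξ, vL m fun ξ => ω' ξ • K' ξ⟫_ℝ = ⟪vL m K, vL m K'⟫_ℝ := by
  rw [inner_vL₂ h h', inner_vL₂ h1 h2]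
  refine integral_congr_ae (Eventually.of_forall fun ξ => ?_)
  dsimp only
  rw [real_inner_smul_left, real_inner_smul_right, ← mul_assoc, e, one_mul]

theorem inner_mp {σ : Ξ → Ξ} (hσ : MeasurePreserving σ m m) (h : MemLp K 2 m)
    (h' : MemLp K' 2 m) : ⟪vL m (K ∘ σ), vL m (K' ∘ σ)⟫_ℝ = ⟪vL m K, vL m K'⟫_ℝ := by
  rw [inner_vL₂ h h', inner_vL₂ (h.comp_measurePreserving hσ) (h'.comp_measurePreserving hσ)]
  conv_rhs => rw [← hσ.map_eq]
  rw [integral_map hσ.aemeasurable (by rw [hσ.map_eq]; exact h.1.inner h'.1)]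
  rfl

theorem re_inner (g g' : Lp ℂ 2 m) : ⟪g, g'⟫_ℝ = (⟪g, g'⟫_ℂ).re := by
  rw [MeasureTheory.L2.inner_def, MeasureTheory.L2.inner_def]
  exact integral_re (MeasureTheory.L2.integrable_inner (𝕜 := ℂ) g g')

theorem re_inner_vL (g : Lp ℂ 2 m) (h : MemLp K 2 m) :
    ⟪g, vL m K⟫_ℝ = (∫ ξ, conj (g ξ) * K ξ ∂m).re := by
  rw [re_inner, MeasureTheory.L2.inner_def]
  refine congrArg _ (integral_congr_ae ((vL_ae h).mono fun ξ e => ?_))
  simp only [e, RCLike.inner_apply']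

/-- the space of tests -/
abbrev HH (m : Measure Ξ) : Type := WithLp 2 (Lp ℂ 2 m × ℝ)

/-- a vector of the space of tests -/
noncomputable def V (m : Measure Ξ) (K : Ξ → ℂ) (s : ℝ) : HH m := WithLp.toLp 2 (vL m K, s)

theorem inner_V (s s' : ℝ) : ⟪V m K s, V m K' s'⟫_ℝ = ⟪vL m K, vL m K'⟫_ℝ + s * s' := by
  rw [WithLp.prod_inner_apply]
  exact congrArg _ (mul_comm _ _)

theorem L2.norm_V (h : L2 m K D) {s : ℝ} (hs : |s| ≤ D) : ‖V m K s‖ ≤ 2 * D := by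
  rw [two_mul]; exact norm_pair h.norm_le hs

theorem enorm_V (h : MemLp K 2 m) (s : ℝ) : ENNReal.ofReal ‖V m K s‖ ^ 2 =
    ∫⁻ ξ, ‖K ξ‖ₑ ^ 2 ∂m + ENNReal.ofReal (s ^ 2) := by
  rw [← ENNReal.ofReal_pow (norm_nonneg _), WithLp.prod_norm_sq_eq_of_L2,
    ENNReal.ofReal_add (sq_nonneg _) (sq_nonneg _), ENNReal.ofReal_pow (norm_nonneg _), ofReal_norm,
    ← enorm_vL h, Real.norm_eq_abs, sq_abs]
  rfl

variable {G : Type}

theorem meas_V [MeasurableSpace G] [SFinite m] {F : G → Ξ → ℂ} {ψ : G → ℝ}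
    (hF : Measurable (Function.uncurry F)) (h : ∀ y, MemLp (F y) 2 m) (hψ : Measurable ψ)
    (v : HH m) : Measurable fun y => ⟪v, V m (F y) (ψ y)⟫_ℝ := by
  simp only [WithLp.prod_inner_apply]
  refine Measurable.add ?_ (measurable_const.inner hψ)
  have e : ∀ y, ⟪(WithLp.ofLp v).1, (WithLp.ofLp (V m (F y) (ψ y))).1⟫_ℝ
    = ∫ ξ, ⟪(WithLp.ofLp v).1 ξ, F y ξ⟫_ℝ ∂m := fun y => inner_vL _ (h y)
  simp only [e]
  exact (StronglyMeasurable.integral_prod_right' (f := fun q : G × Ξ =>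
    ⟪(WithLp.ofLp v).1 q.2, F q.1 q.2⟫_ℝ) (((Lp.stronglyMeasurable _).comp_measurable
      measurable_snd).inner hF.stronglyMeasurable)).measurable

theorem comb_V {F : G → Ξ → ℂ} (ψ : G → ℝ) (h : ∀ y, MemLp (F y) 2 m) (a : G →₀ ℝ) :
    MemLp (Finsupp.linearCombination ℝ F a) 2 m ∧
      Finsupp.linearCombination ℝ (fun y => V m (F y) (ψ y)) a =
        V m (Finsupp.linearCombination ℝ F a) (Finsupp.linearCombination ℝ ψ a) := by
  induction a using Finsupp.induction_linear with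
  | zero => simp only [map_zero]; exact ⟨MemLp.zero, by rw [V, vL_zero]; rfl⟩
  | add a b ha hb =>
    simp only [map_add]
    exact ⟨ha.1.add hb.1, by rw [ha.2, hb.2, V, V, V, vL_add ha.1 hb.1]; rfl⟩
  | single y c =>
    simp only [Finsupp.linearCombination_single]
    exact ⟨(h y).const_smul c, by rw [V, V, vL_smul c (h y)]; rfl⟩

/-- the estimates of a kernel -/
structure Ker [Group G] [MeasurableSpace G] (m : Measure Ξ) (r : G → ℝ) (c : ℝ) (D : ℝ → ℝ)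
    (Λ s : ℝ) (F : G → Ξ → ℂ) (ψ : G → ℝ) (σ : G → Ξ → Ξ) (ω : Ξ → ℝ) : Prop where
  mF : Measurable (Function.uncurry F)
  mψ : Measurable ψ
  mω : Measurable ω
  ω0 : ∀ ξ, ω ξ ≠ 0
  s0 : s ≠ 0
  c0 : 0 ≤ c
  mp : ∀ x, MeasurePreserving (σ x) m m
  nF : ∀ y, L2 m (F y) Λ
  nψ : ∀ y, |ψ y| ≤ Λ
  pF : ∀ y, L2 m (F y) (D (r y))
  pD : ∀ y, D (r 1) ≤ D (r y)
  pψ : ∀ y, |ψ y - ψ 1| ≤ D (r y)
  bA : ∀ x y, L2 m (fun ξ => (ω ξ)⁻¹ • F (x * y) (σ x ξ)) (D (r x))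
  bF : ∀ x y, L2 m (fun ξ => (ω ξ)⁻¹ • F y ξ) (D (r x))
  bD : ∀ x y, L2 m (fun ξ => ω ξ • (F (x * y) (σ x ξ) - F y ξ)) (D (r x))
  cF : ∀ x y, |s⁻¹ * ψ y| ≤ D (r x)
  cD : ∀ x y, |s * (ψ (x * y) - ψ y)| ≤ D (r x)
  U : ∀ x (a : G →₀ ℝ), ∫⁻ ξ, ‖Finsupp.linearCombination ℝ (fun y => F (x * y)) a ξ‖ₑ ^ 2 ∂m +
    ENNReal.ofReal (Finsupp.linearCombination ℝ (fun y => ψ (x * y)) a ^ 2) ≤
    ENNReal.ofReal c ^ 2 * (∫⁻ ξ, ‖Finsupp.linearCombination ℝ F a ξ‖ₑ ^ 2 ∂m +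
      ENNReal.ofReal (Finsupp.linearCombination ℝ ψ a ^ 2))

/-- **an orbit map from a kernel** -/
theorem Ker.orb [Group G] [MeasurableSpace G] [MeasurableMul G] [SFinite m]
    [MeasurableSpace.CountablyGenerated Ξ] {r : G → ℝ} {c : ℝ} {D : ℝ → ℝ} {Λ s : ℝ}
    {F : G → Ξ → ℂ} {ψ : G → ℝ} {σ : G → Ξ → Ξ} {ω : Ξ → ℝ} (k : Ker m r c D Λ s F ψ σ ω) :
    ∃ (O : Orb r c (fun x => 4 * D x) (2 * Λ)) (ι : Lp ℂ 2 m → O.H) (e : O.H),
      (∀ g g', ⟪ι g, ι g'⟫_ℝ = (⟪g, g'⟫_ℂ).re) ∧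
      (∀ g y, ⟪ι g, O.F y⟫_ℝ = (∫ ξ, conj (g ξ) * F y ξ ∂m).re) ∧ ‖e‖ = 1 ∧
      ∀ y, ⟪e, O.F y⟫_ℝ = ψ y := by
  haveI : Fact ((2 : ℝ≥0∞) ≠ ∞) := ⟨by norm_num⟩
  have hm := fun y => (k.nF y).mem
  have hρ := fun x => exists_ext (fun y => V m (F y) (ψ y)) (fun y => V m (F (x * y)) (ψ (x * y)))
    k.c0 fun a => by
      obtain ⟨a1, a2⟩ := comb_V ψ hm a
      obtain ⟨b1, b2⟩ := comb_V (F := fun y => F (x * y)) (fun y => ψ (x * y)) (fun y => hm _) a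
      have := k.U x a
      rw [← enorm_V a1, ← enorm_V b1, ← a2, ← b2, ← mul_pow,
        ENNReal.pow_le_pow_left_iff two_ne_zero, ← ENNReal.ofReal_mul k.c0] at this
      exact (ENNReal.ofReal_le_ofReal_iff (mul_nonneg k.c0 (norm_nonneg _))).1 this
  choose ρ h1 h2 using hρ
  let a : G → G → HH m := fun x y =>
    V m (fun ξ => ω ξ • (F (x * y) (σ x ξ) - F y ξ)) (s * (ψ (x * y) - ψ y))
  let b : G → G → HH m := fun x y =>
    V m (fun ξ => (ω ξ)⁻¹ • F (x * y) (σ x ξ)) (s⁻¹ * ψ (x * y))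
  let d : G → HH m := fun y => V m (fun ξ => (ω ξ)⁻¹ • F y ξ) (s⁻¹ * ψ y)
  have mA : ∀ x, Measurable fun q : G × Ξ => F (x * q.1) (σ x q.2) := fun x =>
    k.mF.comp ((measurable_fst.const_mul x).prodMk ((k.mp x).measurable.comp measurable_snd))
  have mω : Measurable fun q : G × Ξ => ω q.2 := k.mω.comp measurable_snd
  have mψ : ∀ x, Measurable fun y => ψ (x * y) := fun x => k.mψ.comp (measurable_const_mul x)
  have ma : ∀ x v, Measurable fun y => ⟪v, a x y⟫_ℝ := fun x =>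
    meas_V (mω.smul ((mA x).sub k.mF)) (fun y => (k.bD x y).mem) (((mψ x).sub k.mψ).const_mul s)
  have mb : ∀ x v, Measurable fun y => ⟪v, b x y⟫_ℝ := fun x =>
    meas_V (mω.inv.smul (mA x)) (fun y => (k.bA x y).mem) ((mψ x).const_mul _)
  have md : ∀ v, Measurable fun y => ⟪v, d y⟫_ℝ :=
    meas_V (mω.inv.smul k.mF) (fun y => (k.bF 1 y).mem) (k.mψ.const_mul _)
  have na : ∀ x y, ‖a x y‖ ≤ 2 * D (r x) := fun x y => (k.bD x y).norm_V (k.cD x y)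
  have nb : ∀ x y, ‖b x y‖ ≤ 2 * D (r x) := fun x y => (k.bA x y).norm_V (k.cF x _)
  have nd : ∀ x y, ‖d y‖ ≤ 2 * D (r x) := fun x y => (k.bF x y).norm_V (k.cF x y)
  refine ⟨{ H := HH m
            H' := WithLp 2 (HH m × HH m)
            F := fun y => V m (F y) (ψ y)
            ρ := ρ
            α := fun x y => WithLp.toLp 2 (a x y, d y)
            β := fun x y => WithLp.toLp 2 (b x y, a x y)
            mF := meas_V k.mF hm k.mψ
            mα := fun x v => (ma x _).add (md _)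
            mβ := fun x v => (mb x _).add (ma x _)
            nρ := h1
            cov := fun x y => (h2 x y).symm
            nF := fun y => (k.nF y).norm_V (k.nψ y)
            pt := fun y => ?_
            nα := fun x y => (norm_pair (na x y) (nd x y)).trans_eq (by ring)
            nβ := fun x y => (norm_pair (nb x y) (na x y)).trans_eq (by ring)
            lc := fun x y y' => ?_ },
    fun g => WithLp.toLp 2 (g, 0), WithLp.toLp 2 (0, 1), fun g g' => ?_, fun g y => ?_, ?_,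
    fun y => ?_⟩
  · have h3 := (norm_sub_le _ _).trans (add_le_add (k.pF y).norm_le
      ((k.pF 1).norm_le.trans (k.pD y)))
    have h4 := (k.pF y).pos
    exact (norm_pair h3 (k.pψ y)).trans (by linarith)
  · have hA : ∀ y, MemLp (F (x * y) ∘ σ x) 2 m := fun y => (hm _).comp_measurePreserving (k.mp x)
    have e1 := inner_w (ω := ω) (fun ξ => mul_inv_cancel₀ (k.ω0 ξ)) ((hA y).sub (hm y)) (hA y')
      (k.bD x y).mem (k.bA x y').mem
    have e2 := inner_w (ω' := ω) (fun ξ => inv_mul_cancel₀ (k.ω0 ξ)) (hm y) ((hA y').sub (hm y'))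
      (k.bF x y).mem (k.bD x y').mem
    rw [vL_sub (hA _) (hm _)] at e1 e2
    rw [inner_sub_left, inner_mp (k.mp x) (hm _) (hm _)] at e1
    rw [inner_sub_right] at e2
    refine Eq.trans ?_ (WithLp.prod_inner_apply _ _).symm
    change _ = ⟪a x y, b x y'⟫_ℝ + ⟪d y, a x y'⟫_ℝ
    simp only [a, b, d, inner_V]
    simp only [Pi.sub_apply, Function.comp_apply] at e1 e2
    rw [e1, e2]
    have := k.s0
    field_simp
    ring
  · rw [← re_inner]
    exact (WithLp.prod_inner_apply _ _).trans (by simp)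
  · rw [← re_inner_vL g (hm y)]
    exact (WithLp.prod_inner_apply _ _).trans (by simp [V])
  · exact (WithLp.norm_toLp_snd 2 _ _ _).trans norm_one
  · exact (WithLp.prod_inner_apply _ _).trans (by simp [V])

end Vale.Agent.P092RO
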