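import Vale.Agent.P092RO.Defs
import Vale.Agent.P092RG.Cell
import Vale.Agent.P092RG.QuoM

/-!
P092, rank one, block ORB (helper77): tubes, shadows and the Poisson kernel.
-/

set_option linter.all false

open MeasureTheory Filter Topology Set
open scoped InnerProductSpace ENNReal NNReal Matrix

namespace Vale.Agent.P092RO

open Vale.Agent.P092.H793.Re Vale.Agent.P092RG Vale.Agent.P092RA

theorem eo_nat (x : ℝ) (k : ℕ) : eo (x * k) = eo x ^ k := by
  rw [eo, eo, mul_comm, Real.exp_nat_mul, ENNReal.ofReal_pow (Real.exp_pos _).le]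

theorem geo_eq (a : ℝ) : ∑' k : ℕ, eo (-a * k) = (1 - eo (-a))⁻¹ := by
  simp only [eo_nat, ENNReal.tsum_geometric]

theorem geo_ne {a : ℝ} (ha : 0 < a) : ∑' k : ℕ, eo (-a * k) ≠ ∞ := by
  rw [geo_eq, ENNReal.inv_ne_top]
  refine (tsub_pos_of_lt ?_).ne'
  rw [eo, ENNReal.ofReal_lt_one, Real.exp_lt_one_iff]
  linarith

theorem geo_le {t : ℝ} (h0 : 0 < t) (h1 : t ≤ 1 / 4) :
    ∑' k : ℕ, eo (-(2 * t) * k) ≤ (ENNReal.ofReal t)⁻¹ := by
  rw [geo_eq, ENNReal.inv_le_inv]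
  refine ENNReal.le_sub_of_add_le_right (eo_ne_top _) ?_
  rw [eo, ← ENNReal.ofReal_add h0.le (Real.exp_pos _).le, ENNReal.ofReal_le_one, Real.exp_neg]
  have h2 := Real.add_one_le_exp (2 * t)
  have h3 : (Real.exp (2 * t))⁻¹ ≤ 1 - t := by
    rw [inv_le_iff_one_le_mul₀ (Real.exp_pos _)]
    nlinarith
  linarith

theorem geo_two {t : ℝ} (h0 : 0 < t) (h1 : t ≤ 1 / 4) (N : ℕ) :
    ∑' k : ℕ, eo (-(2 * t) * |(k : ℝ) - N|) ≤ 2 * (ENNReal.ofReal t)⁻¹ := by
  have h5 : ∀ f : ℕ → ℝ≥0∞, ∑' k, f k = ∑ k ∈ Finset.range N, f k + ∑' k, f (k + N) := fun f =>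
    (Summable.sum_add_tsum_nat_add' (f := f) (k := N) ENNReal.summable).symm
  rw [h5, two_mul (ENNReal.ofReal t)⁻¹]
  refine add_le_add (le_trans ?_ (geo_le h0 h1)) (le_trans (le_of_eq ?_) (geo_le h0 h1))
  · refine le_trans ?_ (ENNReal.sum_le_tsum (Finset.range N))
    rw [← Finset.sum_range_reflect (fun k : ℕ => eo (-(2 * t) * k))]
    refine Finset.sum_le_sum fun k hk => eo_mono ?_
    have h2 : N - 1 - k + k ≤ N := by have := Finset.mem_range.1 hk; omega
    have h3 : ((N - 1 - k : ℕ) : ℝ) + k ≤ N := by exact_mod_cast h2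
    have h4 := neg_abs_le ((k : ℝ) - N)
    nlinarith
  · refine tsum_congr fun k => ?_
    rw [Nat.cast_add, add_sub_cancel_right, Nat.abs_cast]

variable {n : ℕ} {G : Type} [Group G] [TopologicalSpace G]
variable {ρ : G →* SLn n} {w : Fin n → ℝ} (h : R1 ρ w)

theorem exists_be_one (g : G) : ∃ ξ, be h g ξ = 1 := by
  obtain ⟨κ, hκ, e⟩ := h.exists_hs_eq_rr g
  exact ⟨κ, by rw [be, bo, h.co_K g hκ, e, sub_self, mul_zero, Real.exp_zero]⟩

theorem be_close (x v : G) (ξ : h.Y) : |be h (x * v) ξ - be h v ξ| ≤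
    2 * (n * (1 + n)) * Real.exp (4 * h.lam * h.rr x - h.rr v) := by
  obtain ⟨κ, hκ, κ', hκ', e⟩ := h.kak_rr v
  have hl := h.lam_pos
  let A := Real.exp (2 * h.lam * (h.rr v - h.rr (x * v)))
  let l := vec ((ρ x).1ᵀ * (ρ x).1)
  let ε := (n * (1 + n)) * Real.exp (4 * h.lam * h.rr x - h.rr v)
  have hA : A ≤ Real.exp (2 * h.lam * h.rr x) := Real.exp_le_exp.2 (mul_le_mul_of_nonneg_left
    (by linarith [(abs_le.1 (h.abs_rr_mul_sub x v)).1]) (by positivity))
  have h1 : ∀ ξ, |be h (x * v) ξ - ⟪l, du h κ⟫_ℝ * A * be h v ξ| ≤ ε := fun ξ => by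
    have e1 : be h (x * v) ξ = ⟪l, du h (v • ξ)⟫_ℝ * A * be h v ξ := by
      rw [← exp_co, be, be, bo, bo, h.co_mul, ← Real.exp_add, ← Real.exp_add]
      congr 1
      ring
    have h2 := norm_con h hκ hκ' (h.rr_nonneg v) ξ
    rw [← e] at h2
    have h3 := be_pos h v ξ
    rw [e1, ← sub_mul, ← sub_mul, ← inner_sub_right, abs_mul, abs_mul, abs_of_pos h3,
      abs_of_pos (show 0 < A from Real.exp_pos _)]
    calc _ ≤ (n * Real.exp (2 * h.lam * h.rr x) * ‖du h (v • ξ) - du h κ‖) *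
          Real.exp (2 * h.lam * h.rr x) * be h v ξ :=
          mul_le_mul_of_nonneg_right (mul_le_mul ((abs_real_inner_le_norm _ _).trans
            (mul_le_mul_of_nonneg_right (norm_co_le h x) (norm_nonneg _))) hA (Real.exp_pos _).le
            (by positivity)) h3.le
      _ = n * (Real.exp (2 * h.lam * h.rr x) * Real.exp (2 * h.lam * h.rr x)) *
          (be h v ξ * ‖du h (v • ξ) - du h κ‖) := by ring
      _ ≤ n * (Real.exp (2 * h.lam * h.rr x) * Real.exp (2 * h.lam * h.rr x)) *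
          ((1 + n) * Real.exp (-h.rr v)) := mul_le_mul_of_nonneg_left h2 (by positivity)
      _ = ε := by
          simp only [ε]
          rw [sub_eq_add_neg, Real.exp_add, ← Real.exp_add (2 * h.lam * h.rr x),
            show 2 * h.lam * h.rr x + 2 * h.lam * h.rr x = 4 * h.lam * h.rr x by ring]
          ring
  have h0 : 0 ≤ ⟪l, du h κ⟫_ℝ * A := by rw [← exp_co]; positivity
  generalize ⟪l, du h κ⟫_ℝ * A = θ at h0 h1
  obtain ⟨ξ₁, e1⟩ := exists_be_one h (x * v)
  obtain ⟨ξ₂, e2⟩ := exists_be_one h v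
  have a1 := abs_le.1 (h1 ξ₁)
  have a2 := abs_le.1 (h1 ξ₂)
  have a3 := abs_le.1 (h1 ξ)
  rw [e1] at a1
  rw [e2] at a2
  have b1 := mul_le_of_le_one_right h0 (be_le h v ξ₁)
  have b2 := be_le h (x * v) ξ₂
  have b3 := be_le h v ξ
  have b4 := be_pos h v ξ
  have b5 : 0 ≤ ε := by positivity
  rw [show 2 * (n * (1 + n)) * Real.exp (4 * h.lam * h.rr x - h.rr v) = 2 * ε by simp only [ε]; ring,
    abs_le]
  constructor <;> nlinarith

/-- **local closeness** -/
theorem sh_close : ∃ a : ℝ, ∀ x v : G,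
    ‖sh h (x * v) - sh h v‖ ≤ Real.exp (a + 4 * h.lam * h.rr x - h.rr v) := by
  obtain ⟨L, hL⟩ := (((contDiff_ps h.lam).of_le (by norm_cast) :
    ContDiff ℝ 1 _).locallyLipschitz.locallyLipschitzOn (s := Icc (0 : ℝ) 1)
    ).exists_lipschitzOnWith_of_compact isCompact_Icc
  refine ⟨L * (2 * (n * (1 + n))), fun x v => (ContinuousMap.norm_le _ (Real.exp_pos _).le).2
    fun ξ => ?_⟩
  have h1 := hL.dist_le_mul _ ⟨(be_pos h (x * v) ξ).le, be_le h _ _⟩ _
    ⟨(be_pos h v ξ).le, be_le h _ _⟩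
  rw [ContinuousMap.sub_apply, sh_apply, sh_apply, ← Complex.ofReal_sub, Complex.norm_real,
    add_sub_assoc, Real.exp_add]
  refine h1.trans ((mul_le_mul_of_nonneg_left (be_close h x v ξ) L.coe_nonneg).trans ?_)
  rw [← mul_assoc]
  exact mul_le_mul_of_nonneg_right ((lt_add_one _).le.trans (Real.add_one_le_exp _))
    (Real.exp_pos _).le

theorem bo_mul (x v : G) (ξ : h.Y) : bo h (x * v) ξ ≤ bo h v ξ + 2 * h.rr x := by
  have h1 := (abs_le.1 (h.abs_co_le x (v • ξ))).2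
  have h2 := (abs_le.1 (h.abs_rr_mul_sub x v)).1
  rw [bo, bo, h.co_mul]
  linarith

/-- the tubes -/
def Tb (c : ℝ) : Set (G × h.Y) := {q | -c < bo h q.1 (q.1⁻¹ • q.2)}

/-- the indicator of a tube -/
noncomputable def ind (c : ℝ) (v : G) (ξ : h.Y) : ℝ≥0∞ := (Tb h c).indicator 1 (v, ξ)

theorem ind_le (c : ℝ) (v : G) (ξ : h.Y) {a b : ℝ≥0∞} (e : -c < bo h v (v⁻¹ • ξ) → a ≤ b) :
    a * ind h c v ξ ≤ b := by
  by_cases h0 : (v, ξ) ∈ Tb h c
  · rw [ind, indicator_of_mem h0, Pi.one_apply, mul_one]; exact e h0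
  · rw [ind, indicator_of_notMem h0, mul_zero]; exact zero_le

theorem ind_K (c : ℝ) {κ : G} (hκ : κ ∈ h.K) (v : G) (ξ : h.Y) :
    ind h c (κ * v) (κ • ξ) = ind h c v ξ := by
  have : (κ * v, κ • ξ) ∈ Tb h c ↔ (v, ξ) ∈ Tb h c := by
    simp only [Tb, mem_setOf_eq, bo]
    rw [h.co_mul, h.co_of_K hκ, h.rr_K_mul hκ, zero_add, mul_inv_rev, mul_smul, inv_smul_smul]
  by_cases h0 : (v, ξ) ∈ Tb h c
  · rw [ind, ind, indicator_of_mem h0, indicator_of_mem (this.2 h0)]; rfl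
  · rw [ind, ind, indicator_of_notMem h0, indicator_of_notMem (this.not.2 h0)]

theorem co_inv' (v : G) (ξ : h.Y) : h.co v⁻¹ ξ = -h.co v (v⁻¹ • ξ) := by
  rw [← h.co_inv, smul_inv_smul]

theorem eo_co_le {t : ℝ} (ht : 0 ≤ t) (v y : G) (ζ : h.Y) :
    eo (-(t * h.co (v⁻¹ * y) ζ)) ≤ eo (-(t * h.co y ζ)) * eo (t * h.rr v) := by
  rw [← eo_add, h.co_mul]
  have h1 := (abs_le.1 (h.abs_co_le v⁻¹ (y • ζ))).1
  rw [h.rr_inv] at h1
  exact eo_mono (by nlinarith)

variable [IsTopologicalGroup G] [SecondCountableTopology G] [MeasurableSpace G] [BorelSpace G]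

theorem meas_ind (c : ℝ) : Measurable fun q : G × h.Y => ind h c q.1 q.2 :=
  measurable_one.indicator (isOpen_lt continuous_const ((continuous_bo h).comp
    (f := fun q : G × h.Y => (q.1, q.1⁻¹ • q.2)) (by fun_prop))).measurableSet

theorem meas_ind' {α : Type*} [MeasurableSpace α] (c : ℝ) {f : α → G} {g : α → h.Y}
    (hf : Measurable f) (hg : Measurable g) : Measurable fun a => ind h c (f a) (g a) :=
  (meas_ind h c).comp (hf.prodMk hg)

theorem meas_eoc {α : Type*} [TopologicalSpace α] [MeasurableSpace α] [OpensMeasurableSpace α]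
    (t : ℝ) {f : α → G} {g : α → h.Y} (hf : Continuous f) (hg : Continuous g) :
    Measurable fun a => eo (-(t * h.co (f a) (g a))) :=
  (continuous_eo.comp (continuous_const.mul
    (h.continuous_co.comp (hf.prodMk hg))).neg).measurable

theorem shadow (c : ℝ) (v : G) :
    ∫⁻ ξ, ind h c v ξ ∂h.νY ≤ eo (h.Q * c) * eo (-(h.Q * h.rr v)) := by
  have h1 := h.conformalY v (F := fun _ => 1) measurable_const
  simp only [one_mul, lintegral_const, measure_univ, mul_one] at h1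
  rw [← mul_one (eo _ * _), h1, ← lintegral_const_mul' _ _
    (ENNReal.mul_ne_top (eo_ne_top _) (eo_ne_top _))]
  refine lintegral_mono fun ξ => ?_
  dsimp only
  rw [← one_mul (ind h c v ξ)]
  refine ind_le h c v ξ fun e => ?_
  rw [← eo_add, ← eo_add, ← eo_zero, co_inv']
  have := h.Q_pos'
  rw [bo] at e
  exact eo_mono (by nlinarith)

/-- the mass -/
noncomputable def Ph (t : ℝ) (y : G) : ℝ≥0∞ := ∫⁻ ζ, eo (-(t * h.co y ζ)) ∂h.νY

theorem lint_dv : ∫⁻ ζ, eo (-(Real.log (h.dv h.y1 ζ) / 4)) ∂h.νY ≠ ∞ := by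
  obtain ⟨C, hC⟩ := h.νY_ball_le
  have hc : Continuous fun ζ => h.dv h.y1 ζ :=
    h.continuous_dv.comp (f := fun ζ => (h.y1, ζ)) (by fun_prop)
  have hm : ∀ k : ℕ, MeasurableSet {ζ | h.dv h.y1 ζ ≤ Real.exp (-(2 * k))} := fun k =>
    (isClosed_le hc continuous_const).measurableSet
  refine ne_top_of_le_ne_top (ENNReal.mul_ne_top (eo_ne_top (C + 1 / 2))
    (geo_ne (show (0 : ℝ) < 1 / 2 by norm_num))) ?_
  calc _ ≤ ∫⁻ ζ, ∑' k : ℕ, {ζ | h.dv h.y1 ζ ≤ Real.exp (-(2 * k))}.indicator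
          (fun _ => eo ((k + 1) / 2)) ζ ∂h.νY := lintegral_mono fun ζ => by
        have h0 : 0 ≤ -Real.log (h.dv h.y1 ζ) / 2 := by
          linarith [Real.log_nonpos (h.dv_nonneg h.y1 ζ) (h.dv_le_one _ _)]
        have h1 := Nat.floor_le h0
        have h2 := Nat.lt_floor_add_one (-Real.log (h.dv h.y1 ζ) / 2)
        refine le_trans ?_ (ENNReal.le_tsum ⌊-Real.log (h.dv h.y1 ζ) / 2⌋₊)
        rw [indicator_of_mem]
        · exact eo_mono (by linarith)
        · exact (Real.le_exp_log _).trans (Real.exp_le_exp.2 (by linarith))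
    _ = ∑' k : ℕ, eo ((k + 1) / 2) * h.νY {ζ | h.dv h.y1 ζ ≤ Real.exp (-(2 * k))} := by
        rw [lintegral_tsum fun k => (measurable_const.indicator (hm k)).aemeasurable]
        exact tsum_congr fun k => lintegral_indicator_const (hm k) _
    _ ≤ _ := by
        rw [← ENNReal.tsum_mul_left]
        refine ENNReal.tsum_le_tsum fun k => (mul_le_mul_right (hC _ k) _).trans ?_
        rw [← eo_add, ← eo_add]
        have h1 := h.one_le_Q
        have h2 : (0 : ℝ) ≤ k := Nat.cast_nonneg k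
        exact eo_mono (by nlinarith)

theorem Ph_le : ∃ C : ℝ, 0 ≤ C ∧ ∀ t, 0 ≤ t → t ≤ 1 / 4 → ∀ y, Ph h t y ≤ eo (C - t * h.rr y) := by
  obtain ⟨C, hC⟩ := exists_le_eo (lint_dv h)
  refine ⟨|C|, abs_nonneg C, fun t h0 h1 y => ?_⟩
  obtain ⟨κ, hκ, κ', hκ', e⟩ := h.kak_rr y
  generalize h.rr y = s at e
  subst e
  have m1 : Measurable fun ζ : h.Y => eo (-(t * h.co (h.a s) ζ)) :=
    meas_eoc h _ continuous_const continuous_id
  simp only [Ph, h.co_kak hκ hκ']
  rw [← lintegral_map m1 (h.measurable_smulY κ'), h.νY_K hκ']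
  calc _ ≤ ∫⁻ ζ, eo (-(t * s)) * eo (-(Real.log (h.dv h.y1 ζ) / 4)) ∂h.νY := by
        refine lintegral_mono_ae ((measure_eq_zero_iff_ae_notMem.1 (h.νY_singleton h.y1)).mono
          fun ζ hζ => ?_)
        have h2 := h.dv_pos (Ne.symm hζ)
        have h3 := Real.log_le_log (by positivity) (h.exp_co_a s ζ)
        rw [Real.log_mul (Real.exp_pos _).ne' h2.ne', Real.log_exp, Real.log_exp] at h3
        have h4 := Real.log_nonpos h2.le (h.dv_le_one _ _)
        rw [← eo_add]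
        exact eo_mono (by nlinarith)
    _ ≤ eo (-(t * s)) * eo C := by
        rw [lintegral_const_mul' _ _ (eo_ne_top _)]
        exact mul_le_mul_right hC _
    _ ≤ _ := by
        rw [← eo_add]
        exact eo_mono (by linarith [le_abs_self C])

/-- the majorant of the kernel -/
noncomputable def J (c t : ℝ) (y v : G) : ℝ≥0∞ :=
  ∫⁻ ζ, eo (-(t * h.co (v⁻¹ * y) ζ)) * ind h c v (y • ζ) ∂h.νY

theorem meas_J (c t : ℝ) (y : G) : Measurable (J h c t y) :=
  Measurable.lintegral_prod_right' (f := fun q : G × h.Y =>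
    eo (-(t * h.co (q.1⁻¹ * y) q.2)) * ind h c q.1 (y • q.2))
    ((meas_eoc h t (by fun_prop) continuous_snd).mul
      (meas_ind' h c measurable_fst ((h.measurable_smulY y).comp measurable_snd)))

theorem J_le1 (c : ℝ) {t : ℝ} (ht : 0 ≤ t) (y v : G) : J h c t y v ≤ Ph h t y * eo (t * h.rr v) := by
  rw [Ph, ← lintegral_mul_const' _ _ (eo_ne_top _)]
  exact lintegral_mono fun ζ => ind_le h c v _ fun _ => eo_co_le h ht v y ζ

theorem J_le2 (c : ℝ) {t : ℝ} (ht : t ≤ h.Q) (y v : G) :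
    J h c t y v ≤ eo (-((h.Q - t) * (h.rr v - h.rr y - c))) := by
  have h1 := h.conformalY (v⁻¹ * y)
    (F := fun ξ => eo (-(-t * h.co (v⁻¹ * y)⁻¹ ξ)) * ind h c v (v • ξ))
    ((meas_eoc h _ continuous_const continuous_id).mul
      (meas_ind' h c measurable_const (h.measurable_smulY v)))
  simp only [h.co_inv, smul_smul, mul_inv_cancel_left, neg_mul_neg] at h1
  rw [J, h1]
  refine (lintegral_mono fun ξ => ?_).trans
    (by rw [lintegral_const, measure_univ, mul_one])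
  dsimp only
  rw [mul_right_comm]
  refine ind_le h c v _ fun e => ?_
  rw [inv_smul_smul, bo] at e
  have h2 := (abs_le.1 (h.abs_co_le y⁻¹ (v • ξ))).1
  rw [h.rr_inv] at h2
  rw [← eo_add, mul_inv_rev, inv_inv, h.co_mul]
  exact eo_mono (by nlinarith)

variable [LocallyCompactSpace G] (μ : Measure G) [μ.IsHaarMeasure]

theorem rad : ∃ C : ℝ, ∀ (W : ℝ → ℝ≥0∞) (b : ℕ → ℝ≥0∞),
    (∀ (k : ℕ) (x : ℝ), k ≤ x → x ≤ k + 1 → W x ≤ b k) →
      ∫⁻ v, W (h.rr v) * eo (-(h.Q * h.rr v)) ∂μ ≤ eo C * ∑' k, b k := by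
  obtain ⟨C, hC⟩ := h.shell_le μ
  refine ⟨C, fun W b hb => ?_⟩
  have hQ := h.Q_pos'
  calc _ ≤ ∫⁻ v, ∑' k : ℕ, {g | |h.rr g - k| ≤ 1}.indicator
          (fun _ => b k * eo (-(h.Q * k))) v ∂μ := lintegral_mono fun v => by
        have h1 := Nat.floor_le (h.rr_nonneg v)
        have h2 := Nat.lt_floor_add_one (h.rr v)
        refine le_trans ?_ (ENNReal.le_tsum ⌊h.rr v⌋₊)
        rw [indicator_of_mem]
        · exact mul_le_mul' (hb _ _ h1 h2.le) (eo_mono (by nlinarith))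
        · show |h.rr v - (⌊h.rr v⌋₊ : ℝ)| ≤ 1
          exact abs_le.2 ⟨by linarith, by linarith⟩
    _ = ∑' k : ℕ, b k * eo (-(h.Q * k)) * μ {g | |h.rr g - k| ≤ 1} := by
        rw [lintegral_tsum fun k : ℕ =>
          (measurable_const.indicator (h.measurableSet_shell k)).aemeasurable]
        exact tsum_congr fun k => lintegral_indicator_const (h.measurableSet_shell k) _
    _ ≤ _ := by
        rw [← ENNReal.tsum_mul_left]
        refine ENNReal.tsum_le_tsum fun k =>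
          (mul_le_mul_right (hC _ (Nat.cast_nonneg k)) _).trans_eq ?_
        rw [mul_assoc, ← eo_add, mul_comm]
        congr 2
        ring

theorem tube (c : ℝ) {W : ℝ → ℝ≥0∞} (hW : Measurable W) (ξ : h.Y) :
    ∫⁻ v, W (h.rr v) * ind h c v ξ ∂μ ≤
      eo (h.Q * c) * ∫⁻ v, W (h.rr v) * eo (-(h.Q * h.rr v)) ∂μ := by
  have h1 : ∀ ξ, ∫⁻ v, W (h.rr v) * ind h c v ξ ∂μ = ∫⁻ v, W (h.rr v) * ind h c v h.y0 ∂μ :=
    fun ξ => by
      obtain ⟨κ, hκ, rfl⟩ := h.exists_K ξ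
      rw [← lintegral_mul_left_eq_self _ κ, ← h.smul_y0]
      simp only [ind_K h c hκ, h.rr_K_mul hκ]
  have h2 : ∫⁻ v, W (h.rr v) * ind h c v ξ ∂μ
      = ∫⁻ ξ', ∫⁻ v, W (h.rr v) * ind h c v ξ' ∂μ ∂h.νY := by
    simp only [h1, lintegral_const, measure_univ, mul_one]
  have m1 : Measurable (Function.uncurry fun (v : G) (ξ : h.Y) => W (h.rr v) * ind h c v ξ) :=
    ((hW.comp h.measurable_rr).comp measurable_fst).mul (meas_ind h c)
  rw [h2, ← lintegral_lintegral_swap m1.aemeasurable, ← lintegral_const_mul' _ _ (eo_ne_top _)]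
  refine lintegral_mono fun v => ?_
  dsimp only
  rw [lintegral_const_mul _ (meas_ind' h c measurable_const measurable_id'), mul_left_comm]
  exact mul_le_mul_right (shadow h c v) _

theorem J_int (c : ℝ) {t : ℝ} (ht : 0 ≤ t) (y : G) {W : ℝ → ℝ≥0∞} (hW : Measurable W) :
    ∫⁻ v, J h c t y v * W (h.rr v) ∂μ ≤ Ph h t y * (eo (h.Q * c) *
      ∫⁻ v, eo (t * h.rr v) * W (h.rr v) * eo (-(h.Q * h.rr v)) ∂μ) := by
  have m1 : Measurable fun s => eo (t * s) * W s := (measurable_eoq t).mul hW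
  have m2 : Measurable fun ζ : h.Y => eo (-(t * h.co y ζ)) :=
    meas_eoc h _ continuous_const continuous_id
  have m3 : Measurable fun q : G × h.Y => eo (t * h.rr q.1) * W (h.rr q.1) * ind h c q.1 (y • q.2) :=
    ((m1.comp h.measurable_rr).comp measurable_fst).mul
      (meas_ind' h c measurable_fst ((h.measurable_smulY y).comp measurable_snd))
  calc _ ≤ ∫⁻ v, ∫⁻ ζ, eo (-(t * h.co y ζ)) * (eo (t * h.rr v) * W (h.rr v) * ind h c v (y • ζ))
          ∂h.νY ∂μ := lintegral_mono fun v => by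
        dsimp only
        have m4 : Measurable fun ζ : h.Y => eo (-(t * h.co (v⁻¹ * y) ζ)) * ind h c v (y • ζ) :=
          (meas_eoc h _ continuous_const continuous_id).mul
            (meas_ind' h c measurable_const (h.measurable_smulY y))
        rw [J, ← lintegral_mul_const _ m4]
        refine lintegral_mono fun ζ => (mul_le_mul_left (mul_le_mul_left
          (eo_co_le h ht v y ζ) _) _).trans_eq ?_
        ring
    _ = ∫⁻ ζ, eo (-(t * h.co y ζ)) * ∫⁻ v, eo (t * h.rr v) * W (h.rr v) * ind h c v (y • ζ) ∂μ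
          ∂h.νY := by
        have m5 : Measurable (Function.uncurry fun (v : G) (ζ : h.Y) => eo (-(t * h.co y ζ)) *
            (eo (t * h.rr v) * W (h.rr v) * ind h c v (y • ζ))) := (m2.comp measurable_snd).mul m3
        rw [lintegral_lintegral_swap m5.aemeasurable]
        exact lintegral_congr fun ζ => lintegral_const_mul' _ _ (eo_ne_top _)
    _ ≤ _ := by
        rw [Ph, ← lintegral_mul_const _ m2]
        exact lintegral_mono fun ζ => mul_le_mul_right (tube h μ c m1 _) _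

theorem J_sq {C c t : ℝ} (hC : 0 ≤ C) (hc : 0 ≤ c) (h0 : 0 ≤ t) (h1 : t ≤ 1 / 4) (y : G)
    (hP : Ph h t y ≤ eo (C - t * h.rr y)) {W : ℝ → ℝ≥0∞} (hW : Measurable W) {E : ℝ → ℝ}
    (e1 : ∀ δ, δ ≤ 0 → 2 * t * δ ≤ E δ) (e2 : ∀ δ, 0 ≤ δ → -(δ / 2) ≤ E δ) :
    ∫⁻ v, J h c t y v ^ 2 * W (h.rr v) ∂μ ≤ eo (2 * C + 2 * h.Q * c) *
      ∫⁻ v, eo (E (h.rr v - h.rr y)) * W (h.rr v) * eo (-(h.Q * h.rr v)) ∂μ := by
  have hQ := h.one_le_Q
  let j : ℝ → ℝ := fun s => min (C - t * h.rr y + t * s) (-((h.Q - t) * (s - h.rr y - c)))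
  have mj : Measurable fun s => eo (j s) * W s :=
    (continuous_eo.comp (by fun_prop)).measurable.mul hW
  refine (lintegral_mono fun v => ?_).trans ((J_int h μ c h0 y mj).trans ?_)
  · dsimp only
    rw [sq, mul_assoc]
    refine mul_le_mul_right (mul_le_mul_left ?_ _) _
    rcases min_choice (C - t * h.rr y + t * h.rr v)
      (-((h.Q - t) * (h.rr v - h.rr y - c))) with e | e <;> simp only [j, e]
    · rw [eo_add]
      exact (J_le1 h c h0 y v).trans (mul_le_mul_left hP _)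
    · exact J_le2 h c (by linarith) y v
  · refine (mul_le_mul_left hP _).trans ?_
    rw [← mul_assoc, ← eo_add, ← lintegral_const_mul' _ _ (eo_ne_top _),
      ← lintegral_const_mul' _ _ (eo_ne_top _)]
    refine lintegral_mono fun v => ?_
    simp only [← mul_assoc, ← eo_add]
    refine mul_le_mul_left (mul_le_mul_left (eo_mono ?_) _) _
    have a1 : j (h.rr v) ≤ _ := min_le_left _ _
    have a2 : j (h.rr v) ≤ _ := min_le_right _ _
    rcases le_total (h.rr v - h.rr y) 0 with e | e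
    · have := e1 _ e
      nlinarith
    · have := e2 _ e
      nlinarith [mul_nonneg h0 hc, mul_nonneg (show 0 ≤ (h.Q : ℝ) - 2 * t - 1 / 2 by linarith) e]

/-- **the three bounds of the kernel** -/
theorem J_bounds : ∃ C : ℝ, 0 ≤ C ∧ ∀ c t, 0 ≤ c → 0 < t → t ≤ 1 / 4 → ∀ y,
    ∫⁻ v, J h c t y v ^ 2 ∂μ ≤ eo (C + 2 * h.Q * c) * (ENNReal.ofReal t)⁻¹ ∧
    ∫⁻ v, J h c t y v ^ 2 ∂μ ≤ eo (C + 2 * h.Q * c + h.rr y / 2) ∧
    ∫⁻ v, J h c t y v ^ 2 * eo (-h.rr v) ∂μ ≤ eo (C + 2 * h.Q * c) := by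
  obtain ⟨C, hC, hP⟩ := Ph_le h
  obtain ⟨C₁, hR⟩ := rad h μ
  obtain ⟨C₂, hG⟩ := exists_le_eo (geo_ne (show (0 : ℝ) < 1 / 2 by norm_num))
  have a1 := le_abs_self C₁
  have a2 := le_abs_self C₂
  have a3 := abs_nonneg C₂
  refine ⟨2 * C + |C₁| + |C₂| + 2, by positivity, fun c t hc h0 h1 y => ⟨?_, ?_, ?_⟩⟩
  · have b1 := J_sq h μ hC hc h0.le h1 y (hP t h0.le h1 y) (W := fun _ => 1) measurable_const
      (E := fun δ => -(2 * t) * |δ|) (fun δ e => by rw [abs_of_nonpos e]; linarith)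
      (fun δ e => by rw [abs_of_nonneg e]; nlinarith)
    simp only [mul_one] at b1
    have b2 := hR (fun x => eo (-(2 * t) * |x - h.rr y|))
      (fun k => eo 1 * eo (-(2 * t) * |(k : ℝ) - ⌊h.rr y⌋₊|)) fun k x e1 e2 => by
        have c1 := Nat.floor_le (h.rr_nonneg y)
        have c2 := Nat.lt_floor_add_one (h.rr y)
        have c3 : |(k : ℝ) - ⌊h.rr y⌋₊| ≤ |x - h.rr y| + 1 := by
          have := le_abs_self (x - h.rr y)
          have := neg_abs_le (x - h.rr y)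
          exact abs_le.2 ⟨by linarith, by linarith⟩
        rw [← eo_add]
        exact eo_mono (by nlinarith)
    rw [ENNReal.tsum_mul_left] at b2
    refine b1.trans ((mul_le_mul_right (b2.trans (mul_le_mul_right (mul_le_mul_right
      (geo_two h0 h1 _) _) _)) _).trans ?_)
    have c4 : (2 : ℝ≥0∞) ≤ eo 1 := by
      rw [eo, ← ENNReal.ofReal_ofNat]
      exact ENNReal.ofReal_le_ofReal (by linarith [Real.add_one_le_exp 1])
    simp only [← mul_assoc]
    refine mul_le_mul_left ((mul_le_mul_right c4 _).trans ?_) _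
    simp only [← eo_add]
    exact eo_mono (by linarith)
  · have b1 := J_sq h μ hC hc h0.le h1 y (hP t h0.le h1 y) (W := fun _ => 1) measurable_const
      (E := fun δ => -(δ / 2)) (fun δ e => by nlinarith) (fun δ e => le_rfl)
    simp only [mul_one] at b1
    have b2 := hR (fun x => eo (-((x - h.rr y) / 2)))
      (fun k => eo (h.rr y / 2) * eo (-(1 / 2) * k)) fun k x e1 e2 => by
        rw [← eo_add]
        exact eo_mono (by linarith)
    rw [ENNReal.tsum_mul_left] at b2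
    refine b1.trans ((mul_le_mul_right (b2.trans (mul_le_mul_right (mul_le_mul_right
      hG _) _)) _).trans ?_)
    simp only [← eo_add]
    exact eo_mono (by linarith)
  · have b1 := J_sq h μ hC hc h0.le h1 y (hP t h0.le h1 y) (W := fun s => eo (-s))
      (measurable_eo.comp measurable_neg) (E := fun _ => 0) (fun δ e => by nlinarith)
      (fun δ e => by linarith)
    simp only [eo_zero, one_mul] at b1
    have b2 := hR (fun x => eo (-x)) (fun k => eo (-(1 / 2) * k)) fun k x e1 e2 =>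
      eo_mono (by have : (0 : ℝ) ≤ k := Nat.cast_nonneg k; linarith)
    refine b1.trans ((mul_le_mul_right (b2.trans (mul_le_mul_right hG _)) _).trans ?_)
    simp only [← eo_add]
    exact eo_mono (by linarith)

end Vale.Agent.P092RO
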