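import Vale.Agent.P092RO.Abs
import Vale.Agent.P092RO.Geo

/-!
P092, rank one, block ORB (helper77): the orbit maps of the Poisson transforms of the tests.
-/

set_option linter.all false

open MeasureTheory Filter Topology Set
open scoped InnerProductSpace ENNReal NNReal ComplexConjugate

namespace Vale.Agent.P092RO

open Vale.Agent.P092.H793.Re Vale.Agent.P092RG Vale.Agent.P092RA Vale.Agent.P092LM
  Vale.Agent.P092UB

theorem abs_exp_sub {u m : ℝ} (e : |u| ≤ m) : |Real.exp u - 1| ≤ m * Real.exp m := by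
  have h1 := abs_le.1 e
  have h0 : 0 ≤ m := (abs_nonneg u).trans e
  have h2 := Real.add_one_le_exp u
  have h3 := Real.exp_le_exp.2 h1.2
  have h4 := Real.add_one_le_exp (-m)
  have h5 : Real.exp (-m) * Real.exp m = 1 := by rw [← Real.exp_add, neg_add_cancel, Real.exp_zero]
  have h6 := Real.one_le_exp h0
  rw [abs_le]
  constructor <;> nlinarith

theorem en_smul (x : ℝ) (z : ℂ) : ‖Real.exp x • z‖ₑ ^ 2 = eo (2 * x) * ‖z‖ₑ ^ 2 := by
  rw [enorm_smul, mul_pow, Real.enorm_eq_ofReal (Real.exp_pos x).le, two_mul, eo_add, sq, eo]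

theorem eo_le_sq {x y : ℝ} (e : x ≤ 2 * y) : eo x ≤ ENNReal.ofReal (Real.exp y) ^ 2 := by
  rw [sq, ← eo, ← eo_add]
  exact eo_mono (by linarith)

theorem inv_sq {t : ℝ} (ht : 0 < t) (z : ℝ) :
    ENNReal.ofReal (((√t)⁻¹ * z) ^ 2) = (ENNReal.ofReal t)⁻¹ * ENNReal.ofReal (z ^ 2) := by
  rw [mul_pow, inv_pow, Real.sq_sqrt ht.le, ENNReal.ofReal_mul (inv_pos.2 ht).le,
    ENNReal.ofReal_inv_of_pos ht]

variable {n : ℕ} {G : Type} [Group G] [TopologicalSpace G]
variable {ρ : G →* SLn n} {w : Fin n → ℝ} (h : R1 ρ w)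

theorem norm_act_one {t : ℝ} (ht : 0 ≤ t) (x : G) :
    ‖act h t x⁻¹ 1 - 1‖ ≤ t * h.rr x * Real.exp (t * h.rr x) := by
  have := h.rr_nonneg x
  refine (ContinuousMap.norm_le _ (by positivity)).2 fun ξ => ?_
  rw [ContinuousMap.sub_apply, act_apply, ContinuousMap.one_apply, ContinuousMap.one_apply, mul_one,
    ← Complex.ofReal_one, ← Complex.ofReal_sub, Complex.norm_real, Real.norm_eq_abs, inv_inv]
  refine abs_exp_sub ?_
  rw [abs_neg, abs_mul, abs_of_nonneg ht]
  exact mul_le_mul_of_nonneg_left (h.abs_co_le _ _) ht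

theorem sh_supp {x v : G} {ξ : h.Y} (e : sh h (x * v) ξ ≠ 0) :
    -(2 + 2 * h.rr x) < bo h v ξ := by
  have h1 := lt_bo h (y := x * v) (ξ := ξ) fun e' => e (by rw [sh_apply, e', Complex.ofReal_zero])
  linarith [bo_mul h x v ξ]

theorem sh_supp' (x : G) {v : G} {ξ : h.Y} (e : sh h v ξ ≠ 0) :
    -(2 + 2 * h.rr x) < bo h v ξ := by
  have h1 := lt_bo h (y := v) (ξ := ξ) fun e' => e (by rw [sh_apply, e', Complex.ofReal_zero])
  linarith [h.rr_nonneg x]

variable [IsTopologicalGroup G] [SecondCountableTopology G] [MeasurableSpace G] [BorelSpace G]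

theorem intg (f : C(h.Y, ℂ)) : Integrable f h.νY :=
  f.continuous.integrable_of_hasCompactSupport (HasCompactSupport.of_compactSpace f)

/-- the mean over the boundary -/
noncomputable def II : C(h.Y, ℂ) →L[ℂ] ℂ := LinearMap.mkContinuous
  { toFun := fun f => ∫ ζ, f ζ ∂h.νY
    map_add' := fun f g => integral_add (intg h f) (intg h g)
    map_smul' := fun c f => integral_smul c f } 1 fun f => by
  have := norm_integral_le_of_norm_le_const (μ := h.νY) (f := f)
    (Eventually.of_forall f.norm_coe_le_norm)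
  rwa [probReal_univ, mul_comm] at this

/-- the Poisson transform at a point -/
noncomputable def PP (t : ℝ) (y : G) : C(h.Y, ℂ) →L[ℂ] ℂ := II h ∘L act h t y⁻¹

theorem PP_act (t : ℝ) (y v : G) (g : C(h.Y, ℂ)) : PP h t y (act h t v g) =
    ∫ ζ, (Real.exp (-(t * h.co (v⁻¹ * y) ζ)) : ℂ) * g (v⁻¹ • y • ζ) ∂h.νY := by
  show II h (act h t y⁻¹ (act h t v g)) = _
  rw [← act_mul]
  show ∫ ζ, act h t (y⁻¹ * v) g ζ ∂h.νY = _
  simp only [act_apply, mul_inv_rev, inv_inv, mul_smul]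

theorem PP_mul (t : ℝ) (x y : G) : PP h t (x * y) = PP h t y ∘L act h t x⁻¹ := by
  ext1 g
  show II h (act h t (x * y)⁻¹ g) = II h (act h t y⁻¹ (act h t x⁻¹ g))
  rw [mul_inv_rev, act_mul]

theorem Pt_eq (t : ℝ) (f : C(h.Y, ℂ)) (y : G) : Pt h t f y = PP h t y f := by
  show _ = ∫ ζ, act h t y⁻¹ f ζ ∂h.νY
  rw [R1.νY, integral_map h.measurable_mkY.aemeasurable
    (act h t y⁻¹ f).continuous.aestronglyMeasurable, Pt]
  refine integral_congr_ae (h.hpK.ae.mono fun k hk => ?_)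
  simp only [act_apply, inv_inv, h.co_K y hk, h.smul_mkY]

theorem PP_one (t : ℝ) (y : G) : PP h t y 1 = ((PP h t y 1).re : ℂ) := by
  have : PP h t y 1 = ((∫ ζ, Real.exp (-(t * h.co y ζ)) ∂h.νY : ℝ) : ℂ) := by
    rw [← integral_complex_ofReal]
    show ∫ ζ, act h t y⁻¹ 1 ζ ∂h.νY = _
    simp only [act_apply, inv_inv, ContinuousMap.one_apply, mul_one]
  rw [this, Complex.ofReal_re]

theorem PP_le {c B : ℝ} (t : ℝ) (y v : G) {g : C(h.Y, ℂ)} (hB : ‖g‖ ≤ B)
    (hc : ∀ ξ, g ξ ≠ 0 → -c < bo h v ξ) :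
    ‖PP h t y (act h t v g)‖ₑ ≤ ENNReal.ofReal B * J h c t y v := by
  rw [PP_act, J, ← lintegral_const_mul' _ _ ENNReal.ofReal_ne_top]
  refine (enorm_integral_le_lintegral_enorm _).trans (lintegral_mono fun ζ => ?_)
  dsimp only
  by_cases h0 : g (v⁻¹ • y • ζ) = 0
  · rw [h0, mul_zero, enorm_zero]; exact zero_le
  · rw [ind, indicator_of_mem (show (v, y • ζ) ∈ Tb h c from hc _ h0), Pi.one_apply, mul_one,
      enorm_mul, mul_comm, ← ofReal_norm, ← ofReal_norm, Complex.norm_real, Real.norm_eq_abs,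
      abs_of_pos (Real.exp_pos _)]
    exact mul_le_mul_left (ENNReal.ofReal_le_ofReal ((g.norm_coe_le_norm _).trans hB)) _

theorem PP_norm : ∃ C : ℝ, 0 ≤ C ∧ ∀ t, 0 ≤ t → t ≤ 1 / 4 → ∀ y g,
    ‖PP h t y g‖ ≤ ‖g‖ * Real.exp C := by
  obtain ⟨C, hC, hP⟩ := Ph_le h
  refine ⟨C, hC, fun t h0 h1 y g => ?_⟩
  have h2 := PP_le h (c := 1) t y 1 (le_refl ‖g‖) fun ξ _ => by
    rw [bo, h.co_of_K h.K.one_mem, h.rr_one]; norm_num
  have h3 := J_le1 h 1 h0 y 1
  rw [h.rr_one, mul_zero, eo_zero, mul_one] at h3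
  have h4 := h2.trans (mul_le_mul_right (h3.trans ((hP t h0 h1 y).trans
    (eo_mono (sub_le_self C (mul_nonneg h0 (h.rr_nonneg y)))))) _)
  rw [act_one, eo, ← ENNReal.ofReal_mul (norm_nonneg _), ← ofReal_norm] at h4
  exact (ENNReal.ofReal_le_ofReal_iff (by positivity)).1 h4

theorem continuous_F (t : ℝ) : Continuous fun q : G × G × G × EE n =>
    PP h t q.1 (TT h t q.2.1 q.2.2.1 q.2.2.2) :=
  (II h).continuous.comp ((continuous_act h t).comp (f := fun q : G × G × G × EE n =>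
    (q.1⁻¹, TT h t q.2.1 q.2.2.1 q.2.2.2)) (continuous_fst.inv.prodMk
      ((continuous_TT h t).comp continuous_snd)))

theorem F_mul (t : ℝ) (x y v : G) (η : EE n) :
    PP h t (x * y) (TW h t (x * v, η)) = PP h t y (TT h t (x * v) v η) := by
  rw [PP_mul, ContinuousLinearMap.comp_apply, TW, act_TT, inv_mul_cancel_left]

theorem TT_le (c t : ℝ) (y u v : G) (η : EE n) (hc : ∀ ξ, sh h u ξ ≠ 0 → -c < bo h v ξ) :
    ‖PP h t y (TT h t u v η)‖ₑ ^ 2 ≤ J h c t y v ^ 2 := by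
  have := PP_le h (B := 1) t y v (g := sh h u * em (du h) η) ((norm_mul_le _ _).trans
    (mul_le_one₀ (norm_sh_le h u) (norm_nonneg _) (norm_em_le _ _))) fun ξ e =>
      hc ξ (left_ne_zero_of_mul e)
  rw [ENNReal.ofReal_one, one_mul] at this
  exact pow_le_pow_left' this 2

theorem lc_NN (μ : Measure G) {t : ℝ} (ht : 0 < t) (Q : G → C(h.Y, ℂ) →L[ℂ] ℂ)
    (hQ : ∀ y, Q y 1 = ((Q y 1).re : ℂ)) (a : G →₀ ℝ) :
    ∫⁻ ξ, ‖Finsupp.linearCombination ℝ (fun y ξ => Q y (TW h t ξ)) a ξ‖ₑ ^ 2 ∂mm h μ +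
      ENNReal.ofReal (Finsupp.linearCombination ℝ (fun y => (√t)⁻¹ * (Q y 1).re) a ^ 2) =
      NN h μ t (SN.of (Finsupp.linearCombination ℝ Q a)) := by
  have h1 : ∀ f, Finsupp.linearCombination ℝ Q a f = ∑ y ∈ a.support, a y • Q y f := fun f => by
    rw [Finsupp.linearCombination_apply, Finsupp.sum, ContinuousLinearMap.sum_apply]
    rfl
  have h2 : Finsupp.linearCombination ℝ Q a 1 = ((∑ y ∈ a.support, a y * (Q y 1).re : ℝ) : ℂ) := by
    rw [h1, Complex.ofReal_sum]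
    exact Finset.sum_congr rfl fun y _ => by rw [Complex.ofReal_mul, ← hQ, Complex.real_smul]
  rw [NN_of h μ ht, h2, en_sq, Complex.norm_real, Real.norm_eq_abs, sq_abs, ← inv_sq ht]
  congr 1
  · refine lintegral_congr fun ξ => ?_
    rw [h1, Finsupp.linearCombination_apply, Finsupp.sum, Finset.sum_apply]
    rfl
  · rw [Finsupp.linearCombination_apply, Finsupp.sum, Finset.mul_sum]
    congr 2
    exact Finset.sum_congr rfl fun y _ => by rw [smul_eq_mul, mul_left_comm]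

theorem lc_mul (t : ℝ) (x : G) (a : G →₀ ℝ) :
    Finsupp.linearCombination ℝ (fun y => PP h t (x * y)) a =
      Finsupp.linearCombination ℝ (PP h t) a ∘L act h t x⁻¹ := by
  ext1 g
  rw [ContinuousLinearMap.comp_apply, Finsupp.linearCombination_apply,
    Finsupp.linearCombination_apply, Finsupp.sum, Finsupp.sum, ContinuousLinearMap.sum_apply,
    ContinuousLinearMap.sum_apply]
  exact Finset.sum_congr rfl fun y _ => by rw [PP_mul]; rfl

variable [LocallyCompactSpace G] (μ : Measure G) [μ.IsHaarMeasure]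

theorem l2_of {K : G × EE n → ℂ} (hK : Continuous K) {j : G → ℝ≥0∞} (hj : Measurable j)
    (e : ∀ v η, ‖K (v, η)‖ₑ ^ 2 ≤ j v) {D : ℝ} (hD : 0 ≤ D)
    (e2 : (∫⁻ v, j v ∂μ) * wm h univ ≤ ENNReal.ofReal D ^ 2) : L2 (mm h μ) K D := by
  refine ⟨hK.aestronglyMeasurable, hD, (lintegral_mono fun ξ : G × EE n => e ξ.1 ξ.2).trans
    (le_trans (le_of_eq ?_) e2)⟩
  have m1 : Measurable fun ξ : G × EE n => j ξ.1 := hj.comp measurable_fst
  rw [mm, lintegral_prod _ m1.aemeasurable, ← lintegral_mul_const _ hj]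
  exact lintegral_congr fun v => lintegral_const (j v)

theorem ker (e : EQ h μ) : ∃ c A B : ℝ, 0 ≤ B ∧ ∀ t, 0 < t → t ≤ 1 / 4 →
    Ker (mm h μ) h.rr c (fun r => Real.exp (A + B * r)) (Real.exp A / √t) (√t)⁻¹
      (fun y ξ => PP h t y (TW h t ξ)) (fun y => (√t)⁻¹ * (PP h t y 1).re)
      (fun x ξ => (x * ξ.1, ξ.2)) fun ξ => Real.exp (h.rr ξ.1 / 2) := by
  obtain ⟨E, hE, e⟩ := e
  obtain ⟨C, hC, hJ⟩ := J_bounds h μ
  obtain ⟨C', hC', hP⟩ := PP_norm h
  obtain ⟨a, ha⟩ := sh_close h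
  obtain ⟨b, hb⟩ := exists_le_eo (measure_ne_top (wm h) univ)
  have hQ := h.Q_pos'
  have hl := h.lam_pos
  have a1 := le_abs_self a
  have a2 := abs_nonneg a
  have b1 := le_abs_self b
  have b2 := abs_nonneg b
  refine ⟨√E, |a| + |b| + C + C' + 4 * h.Q, 2 + 2 * h.Q + 4 * h.lam, by positivity,
    fun t h0 h1 => ?_⟩
  have hs : 0 < √t := Real.sqrt_pos.2 h0
  have hs1 : (√t)⁻¹ * t ≤ 1 := by
    rw [inv_mul_le_iff₀ hs, mul_one]
    exact Real.le_sqrt_of_sq_le (by nlinarith)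
  have hF := continuous_F h t
  have hr := h.continuous_rr
  have p1 : ∀ y, |(PP h t y 1).re| ≤ Real.exp C' := fun y =>
    (Complex.abs_re_le_norm _).trans ((hP t h0.le h1 y 1).trans
      (mul_le_of_le_one_left (Real.exp_pos _).le ((ContinuousMap.norm_le _ zero_le_one).2
        fun ξ => norm_one.le)))
  have p2 : ∀ x y, |(PP h t (x * y) 1).re - (PP h t y 1).re| ≤ t * Real.exp (|a| + |b| + C + C' +
      4 * h.Q + (2 + 2 * h.Q + 4 * h.lam) * h.rr x) := fun x y => by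
    have c1 := h.rr_nonneg x
    rw [← Complex.sub_re, PP_mul, ContinuousLinearMap.comp_apply, ← map_sub]
    refine (Complex.abs_re_le_norm _).trans ((hP t h0.le h1 y _).trans ((mul_le_mul_of_nonneg_right
      (norm_act_one h h0.le x) (Real.exp_pos _).le).trans ?_))
    rw [mul_assoc, mul_assoc]
    refine mul_le_mul_of_nonneg_left ((mul_le_mul_of_nonneg_right ((lt_add_one _).le.trans
      (Real.add_one_le_exp _)) (by positivity)).trans ?_) h0.le
    rw [← Real.exp_add, ← Real.exp_add]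
    exact Real.exp_le_exp.2 (by nlinarith)
  have mW : ∀ c y, Measurable fun v => J h c t y v ^ 2 * eo (-h.rr v) := fun c y =>
    ((meas_J h c t y).pow_const 2).mul (measurable_eo.comp h.measurable_rr.neg)
  have q1 : ∀ (x y : G) (u : G → G), Continuous u → (∀ v ξ, sh h (u v) ξ ≠ 0 →
      -(2 + 2 * h.rr x) < bo h v ξ) → L2 (mm h μ) (fun ξ => (Real.exp (h.rr ξ.1 / 2))⁻¹ •
        PP h t y (TT h t (u ξ.1) ξ.1 ξ.2)) (Real.exp (|a| + |b| + C + C' +
      4 * h.Q + (2 + 2 * h.Q + 4 * h.lam) * h.rr x)) := fun x y u hu hc => by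
    have c1 := h.rr_nonneg x
    refine l2_of h μ ?_ (mW (2 + 2 * h.rr x) y) (fun v η => ?_) (Real.exp_pos _).le ((mul_le_mul'
        (hJ _ t (by positivity) h0 h1 y).2.2 hb).trans ?_)
    · exact Continuous.smul (Continuous.inv₀ (by fun_prop) fun _ => (Real.exp_pos _).ne')
        (hF.comp (f := fun ξ : G × EE n => (y, u ξ.1, ξ.1, ξ.2)) (by fun_prop))
    · dsimp only
      rw [← Real.exp_neg, en_smul, mul_comm (J _ _ _ _ _ ^ 2)]
      exact mul_le_mul' (eo_mono (by linarith)) (TT_le h _ t y _ v η (hc v))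
    · rw [← eo_add]
      exact eo_le_sq (by nlinarith)
  have q2 : ∀ y, Continuous fun ξ : G × EE n => PP h t y (TW h t ξ) := fun y =>
    hF.comp (f := fun ξ : G × EE n => (y, ξ.1, ξ.1, ξ.2)) (by fun_prop)
  have q3 : ∀ y v η, ‖PP h t y (TW h t (v, η))‖ₑ ^ 2 ≤ J h 2 t y v ^ 2 := fun y v η =>
    TT_le h 2 t y v v η fun ξ e => by simpa only [h.rr_one, mul_zero, add_zero] using sh_supp' h 1 e
  refine ⟨(hF.comp (f := fun q : G × G × EE n => (q.1, q.2.1, q.2.1, q.2.2))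
      (by fun_prop)).measurable, ?_, (by fun_prop : Continuous _).measurable,
    fun _ => (Real.exp_pos _).ne', (inv_pos.2 hs).ne', Real.sqrt_nonneg E,
    fun x => (measurePreserving_mul_left μ x).prod (MeasurePreserving.id _), fun y => ?_,
    fun y => ?_, fun y => ?_, fun y => ?_, fun y => ?_, fun x y => ?_,
    fun x y => q1 x y id continuous_id fun v ξ => sh_supp' h x, fun x y => ?_, fun x y => ?_,
    fun x y => ?_, fun x z => ?_⟩
  · exact (continuous_const.mul (Complex.continuous_re.comp ((II h).continuous.comp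
      ((continuous_act h t).comp (f := fun y : G => (y⁻¹, (1 : C(h.Y, ℂ))))
        (by fun_prop))))).measurable
  · refine l2_of h μ (q2 y) ((meas_J h 2 t y).pow_const 2) (q3 y) (by positivity) ((mul_le_mul'
      (hJ 2 t zero_le_two h0 h1 y).1 hb).trans ?_)
    rw [← ENNReal.ofReal_pow (by positivity), div_eq_inv_mul, inv_sq h0,
      ENNReal.ofReal_pow (Real.exp_pos _).le, mul_right_comm, mul_comm, ← eo_add]
    exact mul_le_mul_right (eo_le_sq (by linarith)) _
  · rw [abs_mul, abs_of_pos (inv_pos.2 hs), div_eq_inv_mul]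
    exact mul_le_mul_of_nonneg_left ((p1 y).trans (Real.exp_le_exp.2 (by linarith)))
      (inv_pos.2 hs).le
  · have c1 := h.rr_nonneg y
    refine l2_of h μ (q2 y) ((meas_J h 2 t y).pow_const 2) (q3 y) (Real.exp_pos _).le ((mul_le_mul'
      (hJ 2 t zero_le_two h0 h1 y).2.1 hb).trans ?_)
    rw [← eo_add]
    exact eo_le_sq (by nlinarith)
  · have c1 := h.rr_nonneg y
    rw [h.rr_one]
    exact Real.exp_le_exp.2 (by nlinarith)
  · have c1 := p2 y 1
    rw [mul_one] at c1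
    rw [← mul_sub, abs_mul, abs_of_pos (inv_pos.2 hs)]
    refine (mul_le_mul_of_nonneg_left c1 (inv_pos.2 hs).le).trans ?_
    rw [← mul_assoc]
    exact mul_le_of_le_one_left (Real.exp_pos _).le hs1
  · have := q1 x y (fun v => x * v) (by fun_prop) fun v ξ => sh_supp h
    simp only [← F_mul] at this
    exact this
  · have c1 := h.rr_nonneg x
    have c2 : ∀ ξ : G × EE n, PP h t (x * y) (TW h t (x * ξ.1, ξ.2)) - PP h t y (TW h t ξ) =
        PP h t y (act h t ξ.1 ((sh h (x * ξ.1) - sh h ξ.1) * em (du h) ξ.2)) := fun ξ => by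
      rw [F_mul, sub_mul, map_sub, map_sub]
      rfl
    refine l2_of h μ ?_ ((mW (2 + 2 * h.rr x) y).const_mul (eo (2 * (a + 4 * h.lam * h.rr x))))
      (fun v η => ?_) (Real.exp_pos _).le ?_
    · exact Continuous.smul (f := fun ξ : G × EE n => Real.exp (h.rr ξ.1 / 2)) (by fun_prop)
        (((q2 (x * y)).comp (f := fun ξ : G × EE n => (x * ξ.1, ξ.2)) (by fun_prop)).sub (q2 y))
    · have c3 := PP_le h (c := 2 + 2 * h.rr x) t y v (g := (sh h (x * v) - sh h v) * em (du h) η)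
        ((norm_mul_le _ _).trans ((mul_le_of_le_one_right (norm_nonneg _) (norm_em_le _ _)).trans
          (ha x v))) fun ξ e => by
          by_contra hc
          refine left_ne_zero_of_mul e ?_
          rw [ContinuousMap.sub_apply, not_not.1 fun e => hc (sh_supp h e),
            not_not.1 fun e => hc (sh_supp' h x e), sub_zero]
      dsimp only
      rw [en_smul, c2 (v, η)]
      refine (mul_le_mul_right (pow_le_pow_left' c3 2) _).trans_eq ?_
      rw [mul_pow, ← eo, sq (eo _), mul_comm (J _ _ _ _ _ ^ 2)]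
      simp only [← mul_assoc, ← eo_add]
      congr 2
      ring
    · rw [lintegral_const_mul' _ _ (eo_ne_top _)]
      refine (mul_le_mul' (mul_le_mul_right (hJ _ t (by positivity) h0 h1 y).2.2 _) hb).trans ?_
      rw [← eo_add, ← eo_add]
      exact eo_le_sq (by nlinarith)
  · have c1 := h.rr_nonneg x
    rw [inv_mul_cancel_left₀ (inv_pos.2 hs).ne']
    exact (p1 y).trans (Real.exp_le_exp.2 (by nlinarith))
  · rw [← mul_sub, ← mul_assoc, ← mul_inv, Real.mul_self_sqrt h0.le, abs_mul,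
      abs_of_pos (inv_pos.2 h0), inv_mul_le_iff₀ h0]
    exact p2 x y
  · rw [lc_NN h μ h0 (fun y => PP h t (x * y)) (fun y => PP_one h t _),
      lc_NN h μ h0 (PP h t) (PP_one h t), lc_mul, ← NN_comp, ← ENNReal.ofReal_pow (Real.sqrt_nonneg E),
      Real.sq_sqrt hE]
    exact e t h0 h1 _ _

/-- **A0 from EQ** -/
theorem a0 (e : EQ h μ) : A0 h (mm h μ) (TW h) := by
  obtain ⟨c, A, B, hB, k⟩ := ker h μ e
  refine ⟨continuous_TW h, eq_of_EQ h e, c, fun r => 4 * Real.exp (A + B * r), 2 * Real.exp A,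
    fun r r' e => by dsimp only; gcongr, fun t ht => ?_⟩
  obtain ⟨O, ι, e, h1, h2, h3, h4⟩ := (k t ht.1 ht.2).orb
  rw [mul_div_assoc]
  refine ⟨O, ι, e, h1, fun g y => ?_, h3, fun y => ?_⟩
  · simp only [Pt_eq]
    exact h2 g y
  · rw [h4, Pt_eq, mul_inv_cancel_left₀ (Real.sqrt_pos.2 ht.1).ne']

end Vale.Agent.P092RO
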